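import Vale.Agent.P325.Star.Defs

/-!
# Good cosets (package B-GOODZOOM)

`Expansion → GoodZoom`.
-/

namespace Vale.Agent.P325.H685

open Vale.Agent.P325.Star Finset

section Count

variable {T Q W : Type} [AddCommGroup T] [Module F T] [Finite T] [AddCommGroup Q] [Module F Q]
  [Finite Q] [AddCommGroup W] [Module F W] [Finite W]

theorem finite_hom : Finite (T →ₗ[F] Q) := DFunLike.finite _

theorem card_dual : Nat.card (Module.Dual F T) = Nat.card T := by
  have : Module.Finite F T := Module.Finite.of_finite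
  rw [Module.natCard_eq_pow_finrank (K := F) (V := T),
    Module.natCard_eq_pow_finrank (K := F) (V := Module.Dual F T), Subspace.dual_finrank_eq]

/-- all fibres of a surjective linear map have the same size -/
theorem card_fiber (L : T →ₗ[F] Q) (hL : Function.Surjective L) (q : Q) :
    Nat.card {t : T // L t = q} * Nat.card Q = Nat.card T := by
  have : Module.Finite F T := Module.Finite.of_finite
  have : Module.Finite F Q := Module.Finite.of_finite
  obtain ⟨t₀, ht₀⟩ := hL q
  have e : {t : T // L t = q} ≃ LinearMap.ker L :=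
    { toFun := fun t => ⟨t.1 - t₀, by simp [t.2, ht₀]⟩
      invFun := fun t => ⟨t.1 + t₀, by
        have := t.2
        rw [LinearMap.mem_ker] at this
        simp [this, ht₀]⟩
      left_inv := fun t => by simp
      right_inv := fun t => by simp }
  rw [Nat.card_congr e]
  have h1 := LinearMap.finrank_range_add_finrank_ker L
  rw [LinearMap.range_eq_top.2 hL, finrank_top] at h1
  rw [Module.natCard_eq_pow_finrank (K := F) (V := T),
    Module.natCard_eq_pow_finrank (K := F) (V := Q),
    Module.natCard_eq_pow_finrank (K := F) (V := LinearMap.ker L), ← pow_add, ← h1, add_comm]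

/-- few linear maps are not onto -/
theorem card_not_surj :
    Nat.card {N : T →ₗ[F] Q // ¬ Function.Surjective N} * Nat.card T ≤
      Nat.card Q * Nat.card (T →ₗ[F] Q) := by
  classical
  have : Finite (T →ₗ[F] Q) := finite_hom
  have : Finite (Module.Dual F Q) := finite_hom
  have : Finite (Module.Dual F T) := finite_hom
  let _ := Fintype.ofFinite (T →ₗ[F] Q)
  let _ := Fintype.ofFinite (Module.Dual F Q)
  -- the maps killed by a nonzero functional
  have key : ∀ Φ : Module.Dual F Q, Φ ≠ 0 →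
      (univ.filter fun N : T →ₗ[F] Q => Φ ∘ₗ N = 0).card * Nat.card T =
        Nat.card (T →ₗ[F] Q) := by
    intro Φ hΦ
    obtain ⟨q, hq⟩ : ∃ q, Φ q ≠ 0 := by
      by_contra hcon
      push Not at hcon
      exact hΦ (LinearMap.ext hcon)
    have hq1 : Φ q = 1 := by
      have : ∀ z : F, z ≠ 0 → z = 1 := by decide
      exact this _ hq
    have hs : Function.Surjective (LinearMap.compRight F Φ : (T →ₗ[F] Q) →ₗ[F] (T →ₗ[F] F)) := by
      intro ψ
      refine ⟨ψ.smulRight q, ?_⟩
      ext t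
      simp [hq1]
    have h := card_fiber (LinearMap.compRight F Φ : (T →ₗ[F] Q) →ₗ[F] (T →ₗ[F] F)) hs 0
    have h2 : Nat.card (T →ₗ[F] F) = Nat.card T := card_dual
    rw [h2] at h
    rw [← h]
    congr 1
    rw [Nat.card_eq_fintype_card, Fintype.card_subtype]
    congr
  have hsub : (univ.filter fun N : T →ₗ[F] Q => ¬ Function.Surjective N) ⊆
      (univ.filter fun Φ : Module.Dual F Q => Φ ≠ 0).biUnion
        fun Φ => univ.filter fun N : T →ₗ[F] Q => Φ ∘ₗ N = 0 := by
    intro N hN
    rw [mem_filter] at hN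
    have hlt : LinearMap.range N < ⊤ := by
      rw [lt_top_iff_ne_top]
      intro h
      exact hN.2 (LinearMap.range_eq_top.1 h)
    obtain ⟨Φ, hΦ, hle⟩ := Submodule.exists_le_ker_of_lt_top _ hlt
    rw [mem_biUnion]
    refine ⟨Φ, by simp [hΦ], ?_⟩
    rw [mem_filter]
    refine ⟨mem_univ _, ?_⟩
    ext t
    exact hle ⟨t, rfl⟩
  have h1 : Nat.card {N : T →ₗ[F] Q // ¬ Function.Surjective N} =
      (univ.filter fun N : T →ₗ[F] Q => ¬ Function.Surjective N).card := by
    rw [Nat.card_eq_fintype_card, Fintype.card_subtype]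
  rw [h1]
  calc (univ.filter fun N : T →ₗ[F] Q => ¬ Function.Surjective N).card * Nat.card T
      ≤ (∑ Φ ∈ univ.filter fun Φ : Module.Dual F Q => Φ ≠ 0,
          (univ.filter fun N : T →ₗ[F] Q => Φ ∘ₗ N = 0).card) * Nat.card T := by
        gcongr
        exact (card_le_card hsub).trans card_biUnion_le
    _ = ∑ Φ ∈ univ.filter fun Φ : Module.Dual F Q => Φ ≠ 0, Nat.card (T →ₗ[F] Q) := by
        rw [sum_mul]
        exact sum_congr rfl fun Φ hΦ => key Φ (mem_filter.1 hΦ).2
    _ ≤ ∑ Φ : Module.Dual F Q, Nat.card (T →ₗ[F] Q) :=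
        sum_le_sum_of_subset (filter_subset _ _)
    _ = Nat.card Q * Nat.card (T →ₗ[F] Q) := by
        rw [sum_const, smul_eq_mul, card_univ, ← Nat.card_eq_fintype_card, card_dual]

end Count

section Main

variable {T W : Type} [AddCommGroup T] [Module F T] [Finite T] [AddCommGroup W] [Module F W]
  [Finite W]

/-- If the set `D` is small then some set `{N | G N = N t} \ D` has large retention. -/
theorem exists_retention {δ : ℝ} (hδ : 0 < δ) (G : (T →ₗ[F] W) → W) (D : Set (T →ₗ[F] W))
    (hD : (Nat.card D : ℝ) ≤ δ / 8 * Nat.card (T →ₗ[F] W))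
    (hT : 2 * (Nat.card W : ℝ) / Nat.card T ≤ δ / 4)
    (hG : δ * Nat.card ((T →ₗ[F] W) × W × Module.Dual F T) ≤ Nat.card (agreeSet G)) :
    ∃ (t : T) (S : Set (T →ₗ[F] W)), S.Nonempty ∧ (∀ N ∈ S, G N = N t ∧ N ∉ D) ∧
      δ / 8 * Nat.card S * (Nat.card W * Nat.card (Module.Dual F T)) ≤
      Nat.card {p : (T →ₗ[F] W) × W × Module.Dual F T | p.1 ∈ S ∧ p.1 + one p.2.1 p.2.2 ∈ S} := by
  classical
  have : Finite (T →ₗ[F] W) := finite_hom
  have : Finite (Module.Dual F T) := finite_hom
  have : Finite (T →ₗ[F] (W × F)) := finite_hom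
  let _ := Fintype.ofFinite T
  let _ := Fintype.ofFinite W
  let _ := Fintype.ofFinite (T →ₗ[F] W)
  let _ := Fintype.ofFinite (Module.Dual F T)
  let _ := Fintype.ofFinite (T →ₗ[F] (W × F))
  set h := Fintype.card (T →ₗ[F] W) with hh
  set w := Fintype.card W with hw
  set n := Fintype.card T with hn
  have hd : Fintype.card (Module.Dual F T) = n := by
    rw [← Nat.card_eq_fintype_card, card_dual, Nat.card_eq_fintype_card]
  have hh0 : (0 : ℝ) < h := by
    rw [hh]; exact_mod_cast Fintype.card_pos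
  have hw0 : (0 : ℝ) < w := by
    rw [hw]; exact_mod_cast Fintype.card_pos
  have hn0 : (0 : ℝ) < n := by
    rw [hn]; exact_mod_cast Fintype.card_pos
  simp only [Nat.card_eq_fintype_card] at hD hT hG ⊢
  rw [Fintype.card_prod, Fintype.card_prod, hd] at hG
  rw [hd]
  -- the sets `S t`
  obtain ⟨S, hSdef⟩ : ∃ S : T → Set (T →ₗ[F] W), ∀ t N, N ∈ S t ↔
      G N = N t ∧ N ∉ D ∧ Function.Surjective N :=
    ⟨fun t => {N | G N = N t ∧ N ∉ D ∧ Function.Surjective N}, fun _ _ => Iff.rfl⟩
  by_contra hcon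
  push Not at hcon
  have hlt : ∀ t, (Fintype.card {p : (T →ₗ[F] W) × W × Module.Dual F T |
      p.1 ∈ S t ∧ p.1 + one p.2.1 p.2.2 ∈ S t} : ℝ) ≤
      δ / 8 * Fintype.card (S t) * (w * n) := by
    intro t
    by_cases hS : (S t).Nonempty
    · exact (hcon t (S t) hS fun N hN => ⟨((hSdef t N).1 hN).1, ((hSdef t N).1 hN).2.1⟩).le
    · rw [Set.not_nonempty_iff_eq_empty] at hS
      have hS' : ∀ N, N ∉ S t := fun N hN => by rw [hS] at hN; exact hN
      have h0 : Fintype.card {p : (T →ₗ[F] W) × W × Module.Dual F T |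
        p.1 ∈ S t ∧ p.1 + one p.2.1 p.2.2 ∈ S t} = 0 := by
        rw [Fintype.card_eq_zero_iff]
        refine ⟨fun p => ?_⟩
        exact hS' _ p.2.1
      rw [h0, Nat.cast_zero]
      positivity
  -- upper bound for the sum of the sizes
  have hup : (w : ℝ) * ∑ t, (Fintype.card (S t) : ℝ) ≤ h * n := by
    have h1 : ∀ t, Fintype.card (S t) = ∑ N : T →ₗ[F] W, if N ∈ S t then 1 else 0 := by
      intro t
      rw [← Finset.card_filter, Fintype.card_subtype]
    have h2 : ∀ N : T →ₗ[F] W, w * ∑ t, (if N ∈ S t then 1 else 0) ≤ n := by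
      intro N
      rw [← Finset.card_filter]
      by_cases hN : Function.Surjective N
      · have h3 := card_fiber N hN (G N)
        rw [Nat.card_eq_fintype_card, Nat.card_eq_fintype_card, Nat.card_eq_fintype_card,
          Fintype.card_subtype] at h3
        rw [hn, ← h3, mul_comm]
        gcongr with t
        intro ht
        exact ((hSdef _ _).1 ht).1.symm
      · have h3 : (univ.filter fun t => N ∈ S t) = ∅ := by
          rw [Finset.filter_eq_empty_iff]
          intro t _ ht
          exact hN ((hSdef _ _).1 ht).2.2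
        rw [h3]
        simp
    have h4 : w * ∑ t, Fintype.card (S t) ≤ h * n := by
      calc w * ∑ t, Fintype.card (S t)
          = ∑ N : T →ₗ[F] W, w * ∑ t, (if N ∈ S t then 1 else 0) := by
            simp_rw [h1]
            rw [Finset.sum_comm, mul_sum]
        _ ≤ ∑ N : T →ₗ[F] W, n := sum_le_sum fun N _ => h2 N
        _ = h * n := by rw [sum_const, card_univ, smul_eq_mul]
    exact_mod_cast h4
  -- the triples we keep
  let P : Finset ((T →ₗ[F] W) × W × Module.Dual F T) := univ.filter fun p =>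
    p ∈ agreeSet G ∧ p.1 ∉ D ∧ p.1 + one p.2.1 p.2.2 ∉ D ∧
      Function.Surjective (p.1.prod p.2.2 : T →ₗ[F] W × F)
  -- each kept triple is seen by many `t`
  have hP : ∀ p ∈ P, n ≤ 2 * w * ∑ t, (if p.1 ∈ S t ∧ p.1 + one p.2.1 p.2.2 ∈ S t then 1 else 0) := by
    rintro ⟨N, c, ψ⟩ hp
    obtain ⟨-, hag, hD1, hD2, hs⟩ := mem_filter.1 hp
    simp only at hag hD1 hD2 hs ⊢
    obtain ⟨ε, hε⟩ : ∃ ε : F, G (N + one c ψ) = G N + ε • c := by
      rcases hag with h1 | h1
      · exact ⟨0, by simpa using h1⟩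
      · exact ⟨1, by simpa using h1⟩
    have h3 := card_fiber (N.prod ψ : T →ₗ[F] W × F) hs (G N, ε)
    rw [Nat.card_eq_fintype_card, Nat.card_eq_fintype_card, Nat.card_eq_fintype_card,
      Fintype.card_subtype, Fintype.card_prod, ZMod.card] at h3
    rw [← Finset.card_filter, hn, ← h3, mul_comm, hw]
    have hsN : Function.Surjective N := by
      intro v
      obtain ⟨t, ht⟩ := hs (v, 0)
      exact ⟨t, congrArg Prod.fst ht⟩
    have hsN' : Function.Surjective (N + one c ψ) := by
      intro v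
      obtain ⟨t, ht⟩ := hs (v, 0)
      have h4 : N t = v := congrArg Prod.fst ht
      have h5 : ψ t = 0 := congrArg Prod.snd ht
      exact ⟨t, by simp [one, h4, h5]⟩
    have h6 : (univ.filter fun t => (N.prod ψ : T →ₗ[F] W × F) t = (G N, ε)).card ≤
        (univ.filter fun t => N ∈ S t ∧ N + one c ψ ∈ S t).card := by
      apply card_le_card
      intro t ht
      rw [mem_filter] at ht ⊢
      have h4 : N t = G N := congrArg Prod.fst ht.2
      have h5 : ψ t = ε := congrArg Prod.snd ht.2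
      refine ⟨mem_univ _, (hSdef _ _).2 ⟨h4.symm, hD1, hsN⟩, (hSdef _ _).2 ⟨?_, hD2, hsN'⟩⟩
      rw [hε]
      simp [one, h4, h5]
    calc Fintype.card W * 2 * (univ.filter fun t => (N.prod ψ : T →ₗ[F] W × F) t = (G N, ε)).card
        ≤ Fintype.card W * 2 * (univ.filter fun t => N ∈ S t ∧ N + one c ψ ∈ S t).card :=
          Nat.mul_le_mul_left _ h6
      _ = 2 * Fintype.card W * (univ.filter fun t => N ∈ S t ∧ N + one c ψ ∈ S t).card := by ring
  have hPn : (P.card : ℝ) * n ≤ 2 * w * ∑ t, (Fintype.card {p : (T →ₗ[F] W) × W × Module.Dual F T |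
      p.1 ∈ S t ∧ p.1 + one p.2.1 p.2.2 ∈ S t} : ℝ) := by
    have h1 : ∀ t, Fintype.card {p : (T →ₗ[F] W) × W × Module.Dual F T |
        p.1 ∈ S t ∧ p.1 + one p.2.1 p.2.2 ∈ S t} =
        ∑ p : (T →ₗ[F] W) × W × Module.Dual F T,
          if p.1 ∈ S t ∧ p.1 + one p.2.1 p.2.2 ∈ S t then 1 else 0 := by
      intro t
      rw [← Finset.card_filter]
      exact Fintype.card_subtype _
    have h2 : P.card * n ≤ 2 * w * ∑ t, Fintype.card {p : (T →ₗ[F] W) × W × Module.Dual F T |
        p.1 ∈ S t ∧ p.1 + one p.2.1 p.2.2 ∈ S t} := by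
      calc P.card * n = ∑ p ∈ P, n := by rw [sum_const, smul_eq_mul]
        _ ≤ ∑ p ∈ P, 2 * w * ∑ t,
            (if p.1 ∈ S t ∧ p.1 + one p.2.1 p.2.2 ∈ S t then 1 else 0) := sum_le_sum hP
        _ ≤ ∑ p : (T →ₗ[F] W) × W × Module.Dual F T, 2 * w * ∑ t,
            (if p.1 ∈ S t ∧ p.1 + one p.2.1 p.2.2 ∈ S t then 1 else 0) :=
            sum_le_sum_of_subset (subset_univ _)
        _ = _ := by
            simp_rw [h1]
            rw [← mul_sum, Finset.sum_comm]
    exact_mod_cast h2
  -- the number of kept triples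
  have hPlow : (Fintype.card (agreeSet G) : ℝ) - Fintype.card D * (w * n) - Fintype.card D * (w * n) -
      2 * w / n * (h * (w * n)) ≤ P.card := by
    have hc1 : (univ.filter fun p : (T →ₗ[F] W) × W × Module.Dual F T => p.1 ∈ D).card =
        Fintype.card D * (w * n) := by
      have : (univ.filter fun p : (T →ₗ[F] W) × W × Module.Dual F T => p.1 ∈ D) =
          (univ.filter fun N : T →ₗ[F] W => N ∈ D) ×ˢ univ := by
        ext p; simp
      rw [this, card_product, card_univ, Fintype.card_prod, hd, ← Fintype.card_subtype]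
    have hc2 : (univ.filter fun p : (T →ₗ[F] W) × W × Module.Dual F T =>
        p.1 + one p.2.1 p.2.2 ∈ D).card = Fintype.card D * (w * n) := by
      rw [← hc1]
      refine card_bij' (fun p _ => (p.1 + one p.2.1 p.2.2, p.2))
        (fun p _ => (p.1 - one p.2.1 p.2.2, p.2)) ?_ ?_ ?_ ?_
      · intro p hp
        simpa using hp
      · intro p hp
        simpa using hp
      · intro p _
        simp
      · intro p _
        simp
    have hc3 : ((univ.filter fun p : (T →ₗ[F] W) × W × Module.Dual F T =>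
        ¬ Function.Surjective (p.1.prod p.2.2 : T →ₗ[F] W × F)).card : ℝ) ≤
        2 * w / n * (h * (w * n)) := by
      have h1 := card_not_surj (T := T) (Q := W × F)
      have h2 : Nat.card (T →ₗ[F] W × F) = h * n := by
        rw [← Nat.card_congr (LinearMap.prodEquiv F (M := T) (M₂ := W) (M₃ := F)).toEquiv,
          Nat.card_prod, Nat.card_eq_fintype_card, ← hh, ← hd, ← Nat.card_eq_fintype_card]
      rw [h2, Nat.card_eq_fintype_card, Nat.card_eq_fintype_card, Nat.card_eq_fintype_card,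
        Fintype.card_prod, ZMod.card, ← hw, ← hn] at h1
      have h3 : (univ.filter fun p : (T →ₗ[F] W) × W × Module.Dual F T =>
          ¬ Function.Surjective (p.1.prod p.2.2 : T →ₗ[F] W × F)).card ≤
          w * Fintype.card {N : T →ₗ[F] W × F // ¬ Function.Surjective N} := by
        rw [← Fintype.card_subtype, hw, ← Fintype.card_prod]
        refine Fintype.card_le_of_injective (fun p => (p.1.2.1, ⟨_, p.2⟩)) ?_
        rintro ⟨⟨N, c, ψ⟩, hp⟩ ⟨⟨N', c', ψ'⟩, hp'⟩ heq
        simp only [Prod.mk.injEq, Subtype.mk.injEq] at heq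
        obtain ⟨h4, h5⟩ := heq
        have h6 : N = N' := by
          ext t
          have := LinearMap.congr_fun h5 t
          exact congrArg Prod.fst this
        have h7 : ψ = ψ' := by
          ext t
          have := LinearMap.congr_fun h5 t
          exact congrArg Prod.snd this
        simp [h4, h6, h7]
      have h8 : ((univ.filter fun p : (T →ₗ[F] W) × W × Module.Dual F T =>
          ¬ Function.Surjective (p.1.prod p.2.2 : T →ₗ[F] W × F)).card : ℝ) ≤
          w * Fintype.card {N : T →ₗ[F] W × F // ¬ Function.Surjective N} := by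
        exact_mod_cast h3
      have h9 : (Fintype.card {N : T →ₗ[F] W × F // ¬ Function.Surjective N} : ℝ) * n ≤
          w * 2 * (h * n) := by exact_mod_cast h1
      have h10 : (Fintype.card {N : T →ₗ[F] W × F // ¬ Function.Surjective N} : ℝ) ≤ 2 * w * h := by
        have : (Fintype.card {N : T →ₗ[F] W × F // ¬ Function.Surjective N} : ℝ) * n ≤
            2 * w * h * n := by linarith
        exact le_of_mul_le_mul_right this hn0
      calc ((univ.filter fun p : (T →ₗ[F] W) × W × Module.Dual F T =>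
          ¬ Function.Surjective (p.1.prod p.2.2 : T →ₗ[F] W × F)).card : ℝ)
          ≤ w * (2 * w * h) := h8.trans (by gcongr)
        _ = 2 * w / n * (h * (w * n)) := by field_simp
    have hsub : (univ.filter fun p => p ∈ agreeSet G) ⊆ P ∪
        ((univ.filter fun p : (T →ₗ[F] W) × W × Module.Dual F T => p.1 ∈ D) ∪
        ((univ.filter fun p : (T →ₗ[F] W) × W × Module.Dual F T => p.1 + one p.2.1 p.2.2 ∈ D) ∪
        (univ.filter fun p : (T →ₗ[F] W) × W × Module.Dual F T =>
          ¬ Function.Surjective (p.1.prod p.2.2 : T →ₗ[F] W × F)))) := by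
      intro p hp
      simp only [mem_union, mem_filter, mem_univ, true_and, P] at hp ⊢
      tauto
    have h1 := (card_le_card hsub).trans ((card_union_le _ _).trans (Nat.add_le_add_left
      ((card_union_le _ _).trans (Nat.add_le_add_left (card_union_le _ _) _)) _))
    rw [hc1, hc2, ← Fintype.card_subtype] at h1
    have h2 : (Fintype.card (agreeSet G) : ℝ) ≤ P.card + (Fintype.card D * (w * n) +
        (Fintype.card D * (w * n) + (univ.filter fun p : (T →ₗ[F] W) × W × Module.Dual F T =>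
          ¬ Function.Surjective (p.1.prod p.2.2 : T →ₗ[F] W × F)).card)) := by
      exact_mod_cast h1
    linarith
  -- conclusion
  have hfin : (P.card : ℝ) * n ≤ 2 * (δ / 8) * (h * n) * (w * n) := by
    calc (P.card : ℝ) * n ≤ _ := hPn
      _ ≤ 2 * w * ∑ t, (δ / 8 * Fintype.card (S t) * (w * n)) := by
          gcongr with t
          exact hlt t
      _ = 2 * (δ / 8) * (w * ∑ t, (Fintype.card (S t) : ℝ)) * (w * n) := by
          rw [← sum_mul, ← mul_sum]; ring
      _ ≤ 2 * (δ / 8) * (h * n) * (w * n) := by gcongr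
  have hlow2 : δ / 2 * (h * (w * n)) ≤ P.card := by
    have e1 : (Fintype.card D : ℝ) * (w * n) ≤ δ / 8 * h * (w * n) := by gcongr
    have e2 : 2 * (w : ℝ) / n * (h * (w * n)) ≤ δ / 4 * (h * (w * n)) := by gcongr
    push_cast at hG
    linarith
  have hpos : (0 : ℝ) < δ * (h * (w * n) * n) := by positivity
  have := mul_le_mul_of_nonneg_right hlow2 hn0.le
  nlinarith

theorem card_submodule_le : Nat.card (Submodule F W) ≤ 2 ^ Nat.card W := by
  classical
  let _ := Fintype.ofFinite W
  have h1 : Nat.card (Submodule F W) ≤ Nat.card (Set W) :=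
    Nat.card_le_card_of_injective (fun B : Submodule F W => (B : Set W)) SetLike.coe_injective
  refine h1.trans (le_of_eq ?_)
  rw [Nat.card_eq_fintype_card, Fintype.card_set, Nat.card_eq_fintype_card]

/-- A set dense in a zoom and contained in an evaluation set has a good element. -/
theorem good_of_dense {R : ℕ} {ξ : ℝ} (hξ : 0 < ξ) (G : (T →ₗ[F] W) → W) (t : T)
    (S : Set (T →ₗ[F] W)) (hS : ∀ N ∈ S, G N = N t) (B : Submodule F W) (A : Submodule F T)
    (M₀ : T →ₗ[F] W) (hA : Module.finrank F A ≤ R)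
    (h : ξ * Nat.card (zoom B A) ≤ Nat.card {M : T →ₗ[F] W | M ∈ zoom B A ∧ M₀ + M ∈ S}) :
    ∃ N ∈ S, Good R ξ G B N := by
  have : Finite (T →ₗ[F] W) := finite_hom
  have hpos : 0 < Nat.card (zoom B A) := Nat.card_pos
  have hpos' : (0 : ℝ) < Nat.card {M : T →ₗ[F] W | M ∈ zoom B A ∧ M₀ + M ∈ S} :=
    lt_of_lt_of_le (by positivity) h
  have hpos'' : 0 < Nat.card {M : T →ₗ[F] W | M ∈ zoom B A ∧ M₀ + M ∈ S} := by
    exact_mod_cast hpos'
  obtain ⟨⟨⟨M, hM1, hM2⟩⟩, -⟩ := Nat.card_pos_iff.1 hpos''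
  refine ⟨M₀ + M, hM2, A, M₀, t, hA, ?_, h.trans ?_⟩
  · rw [mem_zoom] at hM1 ⊢
    refine ⟨fun v => ?_, fun a ha => ?_⟩
    · simpa using B.neg_mem (hM1.1 v)
    · rw [Submodule.mem_bot] at ha
      simp [ha]
  · have : Nat.card {M : T →ₗ[F] W | M ∈ zoom B A ∧ M₀ + M ∈ S} ≤
        Nat.card {M : T →ₗ[F] W | M ∈ zoom B A ∧ G (M₀ + M) = (M₀ + M) t} := by
      refine Nat.card_mono (Set.toFinite _) ?_
      rintro N ⟨h1, h2⟩
      exact ⟨h1, hS _ h2⟩
    exact_mod_cast this

end Main

/-- Package B-GOODZOOM. -/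
theorem goodZoom_of_expansion (hE : Expansion) : GoodZoom := by
  intro δ hδ
  obtain ⟨R, ξ, hξ, hEx⟩ := hE (δ / 8) (by positivity)
  refine ⟨R, ξ, hξ, fun m => ?_⟩
  obtain ⟨n₀, hn₀⟩ : ∃ n₀ : ℕ, 2 * (2 : ℝ) ^ m * (1 / 2) ^ n₀ ≤ δ / 4 := by
    obtain ⟨n₀, hn₀⟩ := exists_pow_lt_of_lt_one (show 0 < δ / 4 / (2 * (2 : ℝ) ^ m) by positivity)
      (show (1 / 2 : ℝ) < 1 by norm_num)
    refine ⟨n₀, ?_⟩
    rw [lt_div_iff₀ (by positivity)] at hn₀
    linarith
  refine ⟨δ / 8 / 2 ^ (2 ^ m), by positivity, n₀, ?_⟩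
  intro T W _ _ _ _ _ _ G hm hn hG
  have : Finite (T →ₗ[F] W) := finite_hom
  have : Module.Finite F T := Module.Finite.of_finite
  have : Module.Finite F W := Module.Finite.of_finite
  have hcW : Nat.card W = 2 ^ m := by
    rw [Module.natCard_eq_pow_finrank (K := F) (V := W), hm, Nat.card_eq_fintype_card, ZMod.card]
  have hcT : Nat.card T = 2 ^ Module.finrank F T := by
    rw [Module.natCard_eq_pow_finrank (K := F) (V := T), Nat.card_eq_fintype_card, ZMod.card]
  have hT : 2 * (Nat.card W : ℝ) / Nat.card T ≤ δ / 4 := by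
    refine le_trans ?_ hn₀
    rw [hcW, hcT]
    push_cast
    rw [one_div, inv_pow, ← div_eq_mul_inv]
    gcongr
    norm_num
  by_contra hcon
  push Not at hcon
  obtain ⟨D, hDdef⟩ : ∃ D : Set (T →ₗ[F] W), ∀ N, N ∈ D ↔ ∃ B : Submodule F W,
      Module.finrank F (W ⧸ B) ≤ R ∧ Good R ξ G B N := ⟨{N | _}, fun _ => Iff.rfl⟩
  have hD : (Nat.card D : ℝ) ≤ δ / 8 * Nat.card (T →ₗ[F] W) := by
    classical
    let _ := Fintype.ofFinite (T →ₗ[F] W)
    let _ := Fintype.ofFinite (Submodule F W)
    have h0 : ∀ E : Set (T →ₗ[F] W), Nat.card E = (univ.filter fun N => N ∈ E).card := by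
      intro E
      rw [Nat.card_eq_fintype_card, Fintype.card_subtype]
    have h1 : Nat.card D ≤ ∑ B ∈ (univ.filter fun B : Submodule F W =>
        Module.finrank F (W ⧸ B) ≤ R), Nat.card {N₀ : T →ₗ[F] W | Good R ξ G B N₀} := by
      simp only [h0]
      refine (card_le_card ?_).trans card_biUnion_le
      intro N hN
      obtain ⟨B, hB, hg⟩ := (hDdef N).1 (mem_filter.1 hN).2
      rw [mem_biUnion]
      exact ⟨B, mem_filter.2 ⟨mem_univ _, hB⟩, mem_filter.2 ⟨mem_univ _, hg⟩⟩
    have h2 : (Nat.card D : ℝ) ≤ ∑ B ∈ (univ.filter fun B : Submodule F W =>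
        Module.finrank F (W ⧸ B) ≤ R), δ / 8 / 2 ^ 2 ^ m * Nat.card (T →ₗ[F] W) := by
      have h3 : (Nat.card D : ℝ) ≤ ∑ B ∈ (univ.filter fun B : Submodule F W =>
        Module.finrank F (W ⧸ B) ≤ R), (Nat.card {N₀ : T →ₗ[F] W | Good R ξ G B N₀} : ℝ) := by
        exact_mod_cast h1
      exact h3.trans (sum_le_sum fun B hB => (hcon B (mem_filter.1 hB).2).le)
    rw [sum_const, nsmul_eq_mul] at h2
    have h4 : ((univ.filter fun B : Submodule F W =>
        Module.finrank F (W ⧸ B) ≤ R).card : ℝ) ≤ 2 ^ 2 ^ m := by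
      have h5 : (univ.filter fun B : Submodule F W =>
        Module.finrank F (W ⧸ B) ≤ R).card ≤ 2 ^ 2 ^ m := by
        refine (card_le_univ _).trans ?_
        rw [← Nat.card_eq_fintype_card, ← hcW]
        exact card_submodule_le
      exact_mod_cast h5
    calc (Nat.card D : ℝ) ≤ _ := h2
      _ ≤ 2 ^ 2 ^ m * (δ / 8 / 2 ^ 2 ^ m * Nat.card (T →ₗ[F] W)) := by gcongr
      _ = δ / 8 * Nat.card (T →ₗ[F] W) := by field_simp
  obtain ⟨t, S, hS, hS2, hret⟩ := exists_retention hδ G D hD hT hG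
  obtain ⟨B, A, M₀, hB, hA, hdense⟩ := hEx T W S hS hret
  obtain ⟨N, hN, hgood⟩ := good_of_dense hξ G t S (fun N hN => (hS2 N hN).1) B A M₀ hA hdense
  exact (hS2 N hN).2 ((hDdef N).2 ⟨B, hB, hgood⟩)

end Vale.Agent.P325.H685
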